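import Mathlib
import Crest.Agent.X212.An.Defs
import Crest.Agent.X212.Sob92.Lim

-- ▼ part X212/Ucp64/Ibp
section

/-!
# Integration by parts on a compact set, skew forms, pointwise Clifford algebra

Tools for the Carleman estimate in `Ucp64/Carl`.
-/

namespace Crest.Agent.X212.Ucp64

open Set MeasureTheory Filter Topology
open scoped RealInnerProductSpace

variable {E : Type*} [NormedAddCommGroup E] [NormedSpace ℝ E] [FiniteDimensional ℝ E]
  [MeasurableSpace E] [BorelSpace E] (μ : Measure E) [μ.IsAddHaarMeasure]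
  {Ω K : Set E}

/-- The integral of a derivative of a function supported in `K ⊆ Ω` vanishes. -/
theorem int_div (hΩ : IsOpen Ω) (hK : IsCompact K) (hKΩ : K ⊆ Ω) {F : E → ℝ}
    (hF : ContDiffOn ℝ 1 F Ω) (h0 : ∀ x ∈ Ω, x ∉ K → F x = 0) (e : E) :
    ∫ x in K, fderiv ℝ F x e ∂μ = 0 := by
  classical
  set G : E → ℝ := Ω.indicator F with hG
  have hGF : ∀ x ∈ Ω, G =ᶠ[𝓝 x] F := fun x hx =>
    Filter.mem_of_superset (hΩ.mem_nhds hx) fun y hy => indicator_of_mem hy F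
  have hGK : ∀ x, x ∉ K → G x = 0 := by
    intro x hx
    by_cases h : x ∈ Ω
    · rw [hG, indicator_of_mem h]; exact h0 x h hx
    · rw [hG, indicator_of_notMem h]
  have hG0 : ∀ x, x ∉ K → G =ᶠ[𝓝 x] fun _ => 0 := fun x hx =>
    Filter.mem_of_superset (hK.isClosed.isOpen_compl.mem_nhds hx) fun y hy => hGK y hy
  have hGd : ContDiff ℝ 1 G := by
    rw [contDiff_iff_contDiffAt]
    intro x
    by_cases h : x ∈ Ω
    · exact (hF.contDiffAt (hΩ.mem_nhds h)).congr_of_eventuallyEq (hGF x h)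
    · exact contDiffAt_const.congr_of_eventuallyEq (hG0 x fun hx => h (hKΩ hx))
  have hGs : HasCompactSupport G := HasCompactSupport.intro hK hGK
  have hc : Continuous fun x => fderiv ℝ G x e :=
    (hGd.continuous_fderiv one_ne_zero).clm_apply continuous_const
  have hz : ∀ x, x ∉ K → fderiv ℝ G x e = 0 := fun x hx => by
    rw [(hG0 x hx).fderiv_eq]; simp
  have hI : Integrable (fun x => fderiv ℝ G x e) μ :=
    hc.integrable_of_hasCompactSupport (HasCompactSupport.intro hK hz)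
  have h1 := integral_mul_fderiv_eq_neg_fderiv_mul_of_integrable (μ := μ)
    (f := fun _ : E => (1 : ℝ)) (g := G) (v := e) (by simp) (by simpa using hI)
    (by simpa using hGd.continuous.integrable_of_hasCompactSupport hGs)
    (fun _ _ => differentiableAt_const _) (fun x _ => hGd.differentiable one_ne_zero x)
  simp only [one_mul, fderiv_fun_const, Pi.zero_apply, zero_apply, zero_mul,
    integral_zero, neg_zero] at h1
  rw [setIntegral_congr_fun hK.measurableSet (g := fun x => fderiv ℝ G x e)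
    (fun x hx => by simp only [(hGF x (hKΩ hx)).fderiv_eq]),
    setIntegral_eq_integral_of_forall_compl_eq_zero hz, h1]

variable {V W : Type*} [NormedAddCommGroup V] [InnerProductSpace ℝ V]
  [NormedAddCommGroup W] [InnerProductSpace ℝ W]

omit [FiniteDimensional ℝ E] [MeasurableSpace E] [BorelSpace E] in
theorem cd_dir {F : Type*} [NormedAddCommGroup F] [NormedSpace ℝ F] (hΩ : IsOpen Ω) {v : E → F}
    (hv : ContDiffOn ℝ 2 v Ω) (e : E) : ContDiffOn ℝ 1 (fun x => fderiv ℝ v x e) Ω :=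
  (hv.fderiv_of_isOpen hΩ (m := 1) (by norm_num)).clm_apply contDiffOn_const

omit [FiniteDimensional ℝ E] [MeasurableSpace E] [BorelSpace E] in
theorem co_dir {F : Type*} [NormedAddCommGroup F] [NormedSpace ℝ F] (hΩ : IsOpen Ω) {v : E → F}
    (hv : ContDiffOn ℝ 1 v Ω) (e : E) : ContinuousOn (fun x => fderiv ℝ v x e) Ω :=
  (hv.continuousOn_fderiv_of_isOpen hΩ le_rfl).clm_apply continuousOn_const

theorem bdd_on {X F : Type*} [TopologicalSpace X] [NormedAddCommGroup F] {K : Set X}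
    (hK : IsCompact K) {f : X → F} (hf : ContinuousOn f K) : ∃ C, ∀ x ∈ K, ‖f x‖ ≤ C :=
  hK.exists_bound_of_continuousOn hf

/-- Skew forms of two first derivatives integrate to terms of order one. -/
theorem skew_id (hΩ : IsOpen Ω) (hK : IsCompact K) (hKΩ : K ⊆ Ω)
    {T : E → V →L[ℝ] V →L[ℝ] ℝ} (hT : ContDiffOn ℝ 1 T Ω)
    (hs : ∀ x ∈ Ω, ∀ v w, T x v w = -T x w v) (e e' : E) {v : E → V}
    (hv : ContDiffOn ℝ 2 v Ω) (h0 : ∀ x ∈ Ω, x ∉ K → v x = 0) :
    2 * ∫ x in K, T x (fderiv ℝ v x e) (fderiv ℝ v x e') ∂μ =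
      ∫ x in K, (fderiv ℝ T x e' (v x) (fderiv ℝ v x e)
        - fderiv ℝ T x e (v x) (fderiv ℝ v x e')) ∂μ := by
  have hv1 : ContDiffOn ℝ 1 v Ω := hv.of_le (by norm_num)
  have hF : ∀ a : E, ContDiffOn ℝ 1 (fun x => T x (v x) (fderiv ℝ v x a)) Ω := fun a =>
    (hT.clm_apply hv1).clm_apply (cd_dir hΩ hv a)
  have hI : ∀ a b : E, ∫ x in K, fderiv ℝ (fun x => T x (v x) (fderiv ℝ v x a)) x b ∂μ = 0 :=
    fun a b => int_div μ hΩ hK hKΩ (hF a) (fun x hx hx' => by simp [h0 x hx hx']) b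
  have hD : ∀ a b : E, ∀ x ∈ Ω, fderiv ℝ (fun x => T x (v x) (fderiv ℝ v x a)) x b =
      fderiv ℝ T x b (v x) (fderiv ℝ v x a) + T x (fderiv ℝ v x b) (fderiv ℝ v x a)
        + T x (v x) (fderiv ℝ (fderiv ℝ v) x b a) := by
    intro a b x hx
    have hn := hΩ.mem_nhds hx
    have d1 := ((hT.contDiffAt hn).differentiableAt one_ne_zero).hasFDerivAt
    have d2 := ((hv1.contDiffAt hn).differentiableAt one_ne_zero).hasFDerivAt
    have d3 := (((hv.fderiv_of_isOpen hΩ (m := 1) (by norm_num)).contDiffAt hn).differentiableAt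
      one_ne_zero).hasFDerivAt
    have := ((d1.clm_apply d2).clm_apply (d3.clm_apply (hasFDerivAt_const a x))).fderiv
    rw [this]
    simp
    ring
  have hsym : ∀ x ∈ Ω, fderiv ℝ (fderiv ℝ v) x e e' = fderiv ℝ (fderiv ℝ v) x e' e := fun x hx =>
    ((hv.contDiffAt (hΩ.mem_nhds hx)).isSymmSndFDerivAt (by simp)).eq e e'
  have hc : ∀ a b : E, IntegrableOn
      (fun x => fderiv ℝ (fun x => T x (v x) (fderiv ℝ v x a)) x b) K μ := fun a b =>
    ((co_dir hΩ (hF a) b).mono hKΩ).integrableOn_compact hK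
  have h1 := integral_sub (hc e' e) (hc e e')
  rw [hI, hI, sub_zero] at h1
  have hc2 : IntegrableOn (fun x => T x (fderiv ℝ v x e) (fderiv ℝ v x e')) K μ :=
    (((hT.continuousOn.clm_apply (co_dir hΩ hv1 e)).clm_apply (co_dir hΩ hv1 e')).mono
      hKΩ).integrableOn_compact hK
  have hc3 : IntegrableOn (fun x => fderiv ℝ T x e' (v x) (fderiv ℝ v x e)
        - fderiv ℝ T x e (v x) (fderiv ℝ v x e')) K μ :=
    (((((co_dir hΩ hT e').clm_apply hv.continuousOn).clm_apply (co_dir hΩ hv1 e)).sub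
      (((co_dir hΩ hT e).clm_apply hv.continuousOn).clm_apply (co_dir hΩ hv1 e'))).mono
      hKΩ).integrableOn_compact hK
  rw [← sub_eq_zero, ← integral_const_mul, ← integral_sub (hc2.const_mul 2) hc3, ← h1]
  refine setIntegral_congr_fun hK.measurableSet fun x hx => ?_
  have hx' := hKΩ hx
  simp only [hD _ _ x hx', hsym x hx']
  rw [hs x hx' (fderiv ℝ v x e') (fderiv ℝ v x e)]
  ring

variable {ι : Type*} [Fintype ι]

/-- `∑ |∂_i v|²`. -/
noncomputable def g2 (b : ι → E) (v : E → V) (x : E) : ℝ := ∑ i, ‖fderiv ℝ v x (b i)‖ ^ 2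

omit [FiniteDimensional ℝ E] [MeasurableSpace E] [BorelSpace E] in
theorem g2_co (hΩ : IsOpen Ω) (b : ι → E) {v : E → V} (hv : ContDiffOn ℝ 1 v Ω) :
    ContinuousOn (g2 b v) Ω :=
  continuousOn_finsetSum _ fun i _ => ((co_dir hΩ hv (b i)).norm).pow 2

omit [FiniteDimensional ℝ E] [MeasurableSpace E] [BorelSpace E] in
theorem le_g2 (b : ι → E) (v : E → V) (x : E) (i : ι) : ‖fderiv ℝ v x (b i)‖ ^ 2 ≤ g2 b v x :=
  Finset.single_le_sum (f := fun i => ‖fderiv ℝ v x (b i)‖ ^ 2) (fun _ _ => sq_nonneg _)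
    (Finset.mem_univ i)

theorem skew_bound (hΩ : IsOpen Ω) (hK : IsCompact K) (hKΩ : K ⊆ Ω) (b : ι → E)
    {T : E → V →L[ℝ] V →L[ℝ] ℝ} (hT : ContDiffOn ℝ 1 T Ω)
    (hs : ∀ x ∈ Ω, ∀ v w, T x v w = -T x w v) (i j : ι) :
    ∃ C, 0 ≤ C ∧ ∀ v : E → V, ContDiffOn ℝ 2 v Ω → (∀ x ∈ Ω, x ∉ K → v x = 0) → ∀ δ > 0,
      |∫ x in K, T x (fderiv ℝ v x (b i)) (fderiv ℝ v x (b j)) ∂μ| ≤
        C * (δ * ∫ x in K, g2 b v x ∂μ + δ⁻¹ * ∫ x in K, ‖v x‖ ^ 2 ∂μ) := by
  obtain ⟨C1, h1⟩ := bdd_on hK ((co_dir hΩ hT (b i)).mono hKΩ)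
  obtain ⟨C2, h2⟩ := bdd_on hK ((co_dir hΩ hT (b j)).mono hKΩ)
  refine ⟨|C1| + |C2|, by positivity, fun v hv h0 δ hδ => ?_⟩
  have hv1 : ContDiffOn ℝ 1 v Ω := hv.of_le (by norm_num)
  have hid := skew_id μ hΩ hK hKΩ hT hs (b i) (b j) hv h0
  have i1 : IntegrableOn (g2 b v) K μ := ((g2_co hΩ b hv1).mono hKΩ).integrableOn_compact hK
  have i2 : IntegrableOn (fun x => ‖v x‖ ^ 2) K μ :=
    ((hv.continuousOn.norm.pow 2).mono hKΩ).integrableOn_compact hK
  have hb : ‖∫ x in K, (fderiv ℝ T x (b j) (v x) (fderiv ℝ v x (b i))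
        - fderiv ℝ T x (b i) (v x) (fderiv ℝ v x (b j))) ∂μ‖ ≤
      ∫ x in K, (|C1| + |C2|) * (δ * g2 b v x + δ⁻¹ * ‖v x‖ ^ 2) ∂μ := by
    refine norm_integral_le_of_norm_le
      (((i1.const_mul δ).add (i2.const_mul δ⁻¹)).const_mul _) ?_
    refine (ae_restrict_iff' hK.measurableSet).2 (Eventually.of_forall fun x hx => ?_)
    have key : ∀ (A : V →L[ℝ] V →L[ℝ] ℝ) (C : ℝ) (k : ι), ‖A‖ ≤ C →
        ‖A (v x) (fderiv ℝ v x (b k))‖ ≤ |C| * (δ * g2 b v x + δ⁻¹ * ‖v x‖ ^ 2) := by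
      intro A C k hA
      refine (A.le_opNorm₂ _ _).trans ?_
      rw [mul_assoc]
      refine mul_le_mul (hA.trans (le_abs_self C)) ?_ (by positivity) (abs_nonneg C)
      have e1 := mul_le_mul_of_nonneg_left (le_g2 b v x k) hδ.le
      have e2 : ‖v x‖ * ‖fderiv ℝ v x (b k)‖ * δ ≤
          (δ * ‖fderiv ℝ v x (b k)‖ ^ 2 + δ⁻¹ * ‖v x‖ ^ 2) * δ := by
        have : (δ * ‖fderiv ℝ v x (b k)‖ ^ 2 + δ⁻¹ * ‖v x‖ ^ 2) * δ =
            (δ * ‖fderiv ℝ v x (b k)‖) ^ 2 + ‖v x‖ ^ 2 := by field_simp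
        rw [this]
        nlinarith [sq_nonneg (δ * ‖fderiv ℝ v x (b k)‖ - ‖v x‖),
          mul_nonneg (mul_nonneg (norm_nonneg (v x)) (norm_nonneg (fderiv ℝ v x (b k)))) hδ.le]
      have := le_of_mul_le_mul_right e2 hδ
      linarith
    refine (norm_sub_le _ _).trans ?_
    have a1 := key _ C2 i (h2 x hx)
    have a2 := key _ C1 j (h1 x hx)
    linarith
  rw [integral_const_mul, integral_add (i1.const_mul δ) (i2.const_mul δ⁻¹), integral_const_mul,
    integral_const_mul, ← hid, Real.norm_eq_abs, abs_mul, abs_two] at hb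
  linarith [abs_nonneg (∫ x in K, T x (fderiv ℝ v x (b i)) (fderiv ℝ v x (b j)) ∂μ)]

theorem skew_sum (hΩ : IsOpen Ω) (hK : IsCompact K) (hKΩ : K ⊆ Ω) (b : ι → E)
    {T : ι → ι → E → V →L[ℝ] V →L[ℝ] ℝ} (hT : ∀ i j, ContDiffOn ℝ 1 (T i j) Ω)
    (hs : ∀ i j, ∀ x ∈ Ω, ∀ v w, T i j x v w = -T i j x w v) :
    ∃ C, 0 ≤ C ∧ ∀ v : E → V, ContDiffOn ℝ 2 v Ω → (∀ x ∈ Ω, x ∉ K → v x = 0) → ∀ δ > 0,
      |∫ x in K, ∑ i, ∑ j, T i j x (fderiv ℝ v x (b i)) (fderiv ℝ v x (b j)) ∂μ| ≤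
        C * (δ * ∫ x in K, g2 b v x ∂μ + δ⁻¹ * ∫ x in K, ‖v x‖ ^ 2 ∂μ) := by
  choose C hC0 hC using fun i j => skew_bound μ hΩ hK hKΩ b (hT i j) (hs i j) i j
  refine ⟨∑ i, ∑ j, C i j, Finset.sum_nonneg fun i _ => Finset.sum_nonneg fun j _ => hC0 i j,
    fun v hv h0 δ hδ => ?_⟩
  have hv1 : ContDiffOn ℝ 1 v Ω := hv.of_le (by norm_num)
  have hi : ∀ i j, IntegrableOn
      (fun x => T i j x (fderiv ℝ v x (b i)) (fderiv ℝ v x (b j))) K μ := fun i j =>
    ((((hT i j).continuousOn.clm_apply (co_dir hΩ hv1 _)).clm_apply (co_dir hΩ hv1 _)).mono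
      hKΩ).integrableOn_compact hK
  rw [integral_finsetSum _ fun i _ => integrable_finsetSum _ fun j _ => hi i j, Finset.sum_mul]
  refine (Finset.abs_sum_le_sum_abs _ _).trans (Finset.sum_le_sum fun i _ => ?_)
  rw [integral_finsetSum _ fun j _ => hi i j, Finset.sum_mul]
  exact (Finset.abs_sum_le_sum_abs _ _).trans (Finset.sum_le_sum fun j _ => hC i j v hv h0 δ hδ)

/-- The real inner product as a continuous bilinear map. -/
noncomputable def ip (V : Type*) [NormedAddCommGroup V] [InnerProductSpace ℝ V] :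
    V →L[ℝ] V →L[ℝ] ℝ := innerSL ℝ

@[simp] theorem ip_apply (v w : V) : ip V v w = ⟪v, w⟫ := rfl

/-- The skew part of `s^t s'`. -/
noncomputable def bf (s s' : V →L[ℝ] W) (g : ℝ) : V →L[ℝ] V →L[ℝ] ℝ :=
  (ip W).bilinearComp s s' - g • ip V

@[simp] theorem bf_apply (s s' : V →L[ℝ] W) (g : ℝ) (v w : V) :
    bf s s' g v w = ⟪s v, s' w⟫ - g * ⟪v, w⟫ := by simp [bf]

omit [FiniteDimensional ℝ E] [MeasurableSpace E] [BorelSpace E] in
theorem bf_cd [FiniteDimensional ℝ V] {s s' : E → V →L[ℝ] W} {g : E → ℝ}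
    (hs : ContDiffOn ℝ 1 s Ω) (hs' : ContDiffOn ℝ 1 s' Ω) (hg : ContDiffOn ℝ 1 g Ω) :
    ContDiffOn ℝ 1 (fun x => bf (s x) (s' x) (g x)) Ω := by
  refine contDiffOn_clm_apply.2 fun v => contDiffOn_clm_apply.2 fun w => ?_
  simp only [bf_apply]
  exact ((hs.clm_apply contDiffOn_const).inner ℝ (hs'.clm_apply contDiffOn_const)).sub
    (hg.mul contDiffOn_const)

/-- The Clifford relation `s_i^t s_j + s_j^t s_i = 2 g_ij`. -/
def Cl (s : ι → V →L[ℝ] W) (g : ι → ι → ℝ) : Prop :=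
  ∀ i j v w, ⟪s i v, s j w⟫ + ⟪s i w, s j v⟫ = 2 * (g i j * ⟪v, w⟫)

omit [Fintype ι] in
theorem Cl.skew {s : ι → V →L[ℝ] W} {g : ι → ι → ℝ} (h : Cl s g) (i j : ι) (v w : V) :
    bf (s i) (s j) (g i j) v w = -bf (s i) (s j) (g i j) w v := by
  simp only [bf_apply]
  have := h i j v w
  rw [real_inner_comm v w]
  linarith

/-- Pointwise Gårding identity. -/
theorem norm_sum_sq (s : ι → V →L[ℝ] W) (g : ι → ι → ℝ) (w : ι → V) :
    ‖∑ i, s i (w i)‖ ^ 2 =
      ∑ i, ∑ j, bf (s i) (s j) (g i j) (w i) (w j) + ∑ i, ∑ j, g i j * ⟪w i, w j⟫ := by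
  rw [← real_inner_self_eq_norm_sq, sum_inner, ← Finset.sum_add_distrib]
  refine Finset.sum_congr rfl fun i _ => ?_
  rw [inner_sum, ← Finset.sum_add_distrib]
  refine Finset.sum_congr rfl fun j _ => ?_
  simp

theorem pos_vec [FiniteDimensional ℝ V] {g : ι → ι → ℝ} {c : ℝ}
    (h : ∀ ξ : ι → ℝ, c * ∑ i, ξ i ^ 2 ≤ ∑ i, ∑ j, g i j * (ξ i * ξ j)) (w : ι → V) :
    c * ∑ i, ‖w i‖ ^ 2 ≤ ∑ i, ∑ j, g i j * ⟪w i, w j⟫ := by
  let B := stdOrthonormalBasis ℝ V
  have e1 : ∀ x y : V, ⟪x, y⟫ = ∑ k, ⟪B k, x⟫ * ⟪B k, y⟫ := fun x y => by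
    rw [← B.sum_inner_mul_inner x y]
    exact Finset.sum_congr rfl fun k _ => by rw [real_inner_comm x]
  have e2 : ∑ i, ‖w i‖ ^ 2 = ∑ k, ∑ i, ⟪B k, w i⟫ ^ 2 := by
    rw [Finset.sum_comm]
    exact Finset.sum_congr rfl fun i _ => by
      rw [← real_inner_self_eq_norm_sq, e1]; simp only [sq]
  have e3 : ∑ i, ∑ j, g i j * ⟪w i, w j⟫ =
      ∑ k, ∑ i, ∑ j, g i j * (⟪B k, w i⟫ * ⟪B k, w j⟫) := by
    rw [Finset.sum_comm (s := Finset.univ (α := Fin _))]
    refine Finset.sum_congr rfl fun i _ => ?_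
    rw [Finset.sum_comm]
    exact Finset.sum_congr rfl fun j _ => by rw [e1, Finset.mul_sum]
  rw [e2, e3, Finset.mul_sum]
  exact Finset.sum_le_sum fun k _ => h _

/-- The symbol in the direction `p` is conformal. -/
theorem Cl.sym_inner {s : ι → V →L[ℝ] W} {g : ι → ι → ℝ} (h : Cl s g) (p : ι → ℝ) (v w : V) :
    ⟪∑ k, p k • s k v, ∑ k, p k • s k w⟫ = (∑ j, p j * ∑ k, p k * g k j) * ⟪v, w⟫ := by
  have e : ∀ v w : V, ⟪∑ k, p k • s k v, ∑ k, p k • s k w⟫ =
      ∑ j, ∑ k, p j * p k * ⟪s k v, s j w⟫ := fun v w => by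
    rw [inner_sum]
    refine Finset.sum_congr rfl fun j _ => ?_
    rw [sum_inner]
    exact Finset.sum_congr rfl fun k _ => by rw [real_inner_smul_left, real_inner_smul_right]; ring
  have e2 : ⟪∑ k, p k • s k v, ∑ k, p k • s k w⟫ + ⟪∑ k, p k • s k w, ∑ k, p k • s k v⟫ =
      2 * ((∑ j, p j * ∑ k, p k * g k j) * ⟪v, w⟫) := by
    rw [e v w, e w v, ← Finset.sum_add_distrib, Finset.sum_mul, Finset.mul_sum]
    refine Finset.sum_congr rfl fun j _ => ?_
    rw [← Finset.sum_add_distrib, Finset.mul_sum, Finset.sum_mul, Finset.mul_sum]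
    refine Finset.sum_congr rfl fun k _ => ?_
    rw [← mul_add, h k j v w]; ring
  rw [real_inner_comm (∑ k, p k • s k v)] at e2
  linarith

/-- Pointwise Carleman inequality. -/
theorem Cl.carl {s : ι → V →L[ℝ] W} {g : ι → ι → ℝ} (h : Cl s g) (p : ι → ℝ) (w : ι → V) (v : V)
    (m : ℝ) (hq : (∑ j, p j * ∑ k, p k * g k j) ≠ 0) :
    2 * ∑ j, ∑ i, (((∑ j, p j * ∑ k, p k * g k j)⁻¹ * ∑ k, p k * g k j) •
        ∑ k, p k • bf (s k) (s i) (g k i)) (w j) (w i)
      + 2 * m * ∑ j, (∑ k, p k * g k j) * ⟪w j, v⟫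
      ≤ ‖∑ i, s i (w i) + m • ∑ k, p k • s k v‖ ^ 2 := by
  set q := ∑ j, p j * ∑ k, p k * g k j with hqd
  set Y : V := ∑ j, (∑ k, p k * g k j) • w j with hY
  set X : V := q⁻¹ • Y with hX
  set A : W := ∑ k, p k • s k X with hA
  set M : W := ∑ i, s i (w i) + m • ∑ k, p k • s k v with hM
  have e0 : 2 * ⟪A, M⟫ - 2 * ⟪A, A⟫ ≤ ‖M‖ ^ 2 := by
    have := norm_sub_sq_real A M
    rw [real_inner_self_eq_norm_sq]
    nlinarith [sq_nonneg ‖A - M‖, sq_nonneg ‖A‖]
  have e1 : ⟪A, A⟫ = ⟪X, Y⟫ := by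
    rw [hA, h.sym_inner, ← hqd]
    conv_lhs => rw [hX, real_inner_smul_right, ← hX]
    field_simp
  have e2 : ⟪A, ∑ k, p k • s k v⟫ = ∑ j, (∑ k, p k * g k j) * ⟪w j, v⟫ := by
    rw [hA, h.sym_inner, ← hqd, hX, real_inner_smul_left, ← mul_assoc, mul_inv_cancel₀ hq,
      one_mul, hY, sum_inner]
    exact Finset.sum_congr rfl fun j _ => by rw [real_inner_smul_left]
  have e3 : ⟪A, ∑ i, s i (w i)⟫ = ∑ i, (∑ k, p k • bf (s k) (s i) (g k i)) X (w i) + ⟪X, Y⟫ := by
    rw [inner_sum, hY, inner_sum, ← Finset.sum_add_distrib]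
    refine Finset.sum_congr rfl fun i _ => ?_
    rw [hA, sum_inner, real_inner_smul_right, Finset.sum_mul]
    simp only [sum_apply, smul_apply, bf_apply,
      smul_eq_mul, ← Finset.sum_add_distrib]
    exact Finset.sum_congr rfl fun k _ => by rw [real_inner_smul_left]; ring
  have e4 : ∑ j, ∑ i, ((q⁻¹ * ∑ k, p k * g k j) • ∑ k, p k • bf (s k) (s i) (g k i)) (w j) (w i)
      = ∑ i, (∑ k, p k • bf (s k) (s i) (g k i)) X (w i) := by
    rw [Finset.sum_comm]
    refine Finset.sum_congr rfl fun i _ => ?_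
    set Bi := ∑ k, p k • bf (s k) (s i) (g k i)
    rw [hX, hY, map_smul, map_sum]
    simp only [smul_apply, sum_apply, map_smul,
      smul_eq_mul, Finset.mul_sum]
    exact Finset.sum_congr rfl fun j _ => by rw [← Finset.mul_sum]; ring
  rw [e4]
  have e5 : ⟪A, M⟫ = ⟪A, ∑ i, s i (w i)⟫ + m * ⟪A, ∑ k, p k • s k v⟫ := by
    rw [hM, inner_add_right, real_inner_smul_right]
  rw [e5, e1, e2, e3] at e0
  linarith

end Crest.Agent.X212.Ucp64
end

-- ▼ part X212/Ucp64/Carl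
section

/-!
# Carleman estimate for Dirac type systems
-/

namespace Crest.Agent.X212.Ucp64

open Set MeasureTheory Filter Topology
open scoped RealInnerProductSpace

variable {E : Type*} [NormedAddCommGroup E] [NormedSpace ℝ E]
  {V W : Type*} [NormedAddCommGroup V] [InnerProductSpace ℝ V]
  [NormedAddCommGroup W] [InnerProductSpace ℝ W] {ι : Type*} [Fintype ι] {Ω K : Set E}

/-- A Dirac type symbol on `Ω`: `s_i^t s_j + s_j^t s_i = 2 g_ij`, `g` positive definite.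
(`W` may be bigger than `V`: the gradient is allowed.) -/
structure Op (Ω : Set E) (s : ι → E → V →L[ℝ] W) (g : ι → ι → E → ℝ) : Prop where
  hs : ∀ i, ContDiffOn ℝ 1 (s i) Ω
  hg : ∀ i j, ContDiffOn ℝ 1 (g i j) Ω
  cl : ∀ x ∈ Ω, Cl (fun i => s i x) (fun i j => g i j x)
  pos : ∀ x ∈ Ω, ∀ ξ : ι → ℝ, ξ ≠ 0 → 0 < ∑ i, ∑ j, g i j x * (ξ i * ξ j)

theorem Op.mono {s : ι → E → V →L[ℝ] W} {g : ι → ι → E → ℝ} (h : Op Ω s g) {Ω' : Set E}
    (h' : Ω' ⊆ Ω) : Op Ω' s g :=
  ⟨fun i => (h.hs i).mono h', fun i j => (h.hg i j).mono h', fun x hx => h.cl x (h' hx),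
    fun x hx => h.pos x (h' hx)⟩

theorem Op.unif {s : ι → E → V →L[ℝ] W} {g : ι → ι → E → ℝ} (h : Op Ω s g) (hK : IsCompact K)
    (hKΩ : K ⊆ Ω) : ∃ c > 0, ∀ x ∈ K, ∀ ξ : ι → ℝ,
      c * ∑ i, ξ i ^ 2 ≤ ∑ i, ∑ j, g i j x * (ξ i * ξ j) := by
  have hS : IsCompact {ξ : ι → ℝ | ∑ i, ξ i ^ 2 = 1} := by
    refine (isCompact_closedBall (0 : ι → ℝ) 1).of_isClosed_subset
      (isClosed_eq (by fun_prop) continuous_const) fun ξ hξ => ?_
    rw [mem_closedBall_zero_iff, pi_norm_le_iff_of_nonneg zero_le_one]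
    intro i
    have := Finset.single_le_sum (f := fun i => ξ i ^ 2) (fun _ _ => sq_nonneg _)
      (Finset.mem_univ i)
    rw [show ∑ i, ξ i ^ 2 = 1 from hξ] at this
    exact (sq_le_one_iff_abs_le_one _).1 this
  obtain ⟨c, hc, h1⟩ := (hK.prod hS).exists_forall_le' (a := 0)
    (f := fun z : E × (ι → ℝ) => ∑ i, ∑ j, g i j z.1 * (z.2 i * z.2 j))
    (continuousOn_finsetSum _ fun i _ => continuousOn_finsetSum _ fun j _ =>
      (((h.hg i j).continuousOn.mono hKΩ).comp continuousOn_fst fun z hz => hz.1).mul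
        (by fun_prop))
    (fun z hz => h.pos z.1 (hKΩ hz.1) z.2 fun h0 => by
      have : ∑ i, z.2 i ^ 2 = 1 := hz.2
      simp [h0] at this)
  refine ⟨c, hc, fun x hx ξ => ?_⟩
  have hn : 0 ≤ ∑ i, ξ i ^ 2 := Finset.sum_nonneg fun _ _ => sq_nonneg _
  rcases hn.eq_or_lt with h0 | h0
  · have : ∀ i, ξ i = 0 := fun i => pow_eq_zero_iff (two_ne_zero) |>.1
      ((Finset.sum_eq_zero_iff_of_nonneg fun _ _ => sq_nonneg _).1 h0.symm i (Finset.mem_univ i))
    simp [this]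
  · set r := √(∑ i, ξ i ^ 2) with hr
    have hr0 : 0 < r := Real.sqrt_pos.2 h0
    have hr2 : r ^ 2 = ∑ i, ξ i ^ 2 := Real.sq_sqrt hn
    have := h1 (x, fun i => ξ i / r) ⟨hx, by
      show ∑ i, (ξ i / r) ^ 2 = 1
      simp only [div_pow, ← Finset.sum_div, ← hr2]; field_simp⟩
    have e : ∑ i, ∑ j, g i j x * (ξ i / r * (ξ j / r)) =
        (∑ i, ∑ j, g i j x * (ξ i * ξ j)) / r ^ 2 := by
      rw [Finset.sum_div]
      refine Finset.sum_congr rfl fun i _ => ?_
      rw [Finset.sum_div]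
      exact Finset.sum_congr rfl fun j _ => by field_simp
    simp only [e] at this
    rw [le_div_iff₀ (by positivity), hr2] at this
    exact this

theorem carl_alg {c0 q0 Q D C1 C2 T lam a bb mm : ℝ} 
    (hC1 : 0 ≤ C1) (hC2 : 0 ≤ C2) (ha : 0 ≤ a) (hmm : 0 ≤ mm)
    (hT : T * (D + 8 * C2 * Q + 2 * C2 / c0) ≤ q0 / 2) (hlam : 0 ≤ lam) (hlT : 1 ≤ lam * T)
    (h1 : c0 / 2 * bb ≤ 2 * mm + 2 * (lam * T) ^ 2 * Q * a + C1 * a)
    (h2 : lam * (q0 - T * D) * a
      - 2 * (C2 * (c0 / (lam * T) * bb + (c0 / (lam * T))⁻¹ * a)) ≤ mm) :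
    (q0 / (2 * (1 + 8 * C2)) * lam - 4 * C2 * C1 / (1 + 8 * C2)) * a ≤ mm := by
  set u := lam * T with hu
  have hu0 : 0 < u := by linarith
  have e1 : c0 / u * bb ≤ 4 * mm + 4 * u * Q * a + 2 * C1 * a := by
    rw [div_mul_eq_mul_div, div_le_iff₀ hu0]
    have f1 : 4 * mm ≤ 4 * mm * u := by nlinarith
    have f2 : 2 * C1 * a ≤ 2 * C1 * a * u := by nlinarith [mul_nonneg hC1 ha]
    nlinarith
  have e2 := mul_le_mul_of_nonneg_left e1 hC2
  have e3 : (c0 / u)⁻¹ = u / c0 := by rw [inv_div]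
  rw [e3] at h2
  have e4 := mul_le_mul_of_nonneg_left hT (mul_nonneg hlam ha)
  have e5 : lam * a * (T * (D + 8 * C2 * Q + 2 * C2 / c0)) =
      lam * (T * D) * a + 8 * C2 * u * Q * a + 2 * C2 * (u / c0 * a) := by rw [hu]; ring
  have e6 : (q0 / 2 * lam - 4 * C2 * C1) * a ≤ (1 + 8 * C2) * mm := by nlinarith
  have e7 : (q0 / (2 * (1 + 8 * C2)) * lam - 4 * C2 * C1 / (1 + 8 * C2)) * a =
      (q0 / 2 * lam - 4 * C2 * C1) * a / (1 + 8 * C2) := by field_simp
  rw [e7, div_le_iff₀ (by positivity)]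
  linarith

theorem cd_smul {F : Type*} [NormedAddCommGroup F] [NormedSpace ℝ F] {f : E → ℝ} {u : E → F}
    (hf : ContDiffOn ℝ 1 f Ω) (hu : ContDiffOn ℝ 1 u Ω) : ContDiffOn ℝ 1 (fun x => f x • u x) Ω :=
  hf.smul hu

variable [FiniteDimensional ℝ E] [MeasurableSpace E] [BorelSpace E] [FiniteDimensional ℝ V]

/-- **Carleman estimate** with weight `exp (lam (T - φ)² / 2)` on the shell `0 ≤ φ ≤ T`. -/
theorem carleman (μ : Measure E) [μ.IsAddHaarMeasure] (hΩ : IsOpen Ω) (hK : IsCompact K)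
    (hKΩ : K ⊆ Ω) (b : ι → E) {s : ι → E → V →L[ℝ] W} {g : ι → ι → E → ℝ} (h : Op Ω s g)
    {φ : E → ℝ} (hφ : ContDiffOn ℝ 2 φ Ω) (hφ' : ∀ x ∈ Ω, (fun i => fderiv ℝ φ x (b i)) ≠ 0) :
    ∃ T0 > 0, ∃ c > 0, ∃ C, ∀ T, 0 < T → T ≤ T0 → ∀ lam, 1 ≤ lam * T → ∀ v : E → V,
      ContDiffOn ℝ 2 v Ω → (∀ x ∈ Ω, x ∉ K → v x = 0) → (∀ x ∈ K, v x ≠ 0 → 0 ≤ φ x ∧ φ x ≤ T) →
      (c * lam - C) * ∫ x in K, ‖v x‖ ^ 2 ∂μ ≤
        ∫ x in K, ‖∑ i, s i x (fderiv ℝ v x (b i))
          + (lam * (T - φ x)) • ∑ k, fderiv ℝ φ x (b k) • s k x (v x)‖ ^ 2 ∂μ := by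
  set p : ι → E → ℝ := fun k x => fderiv ℝ φ x (b k) with hp
  have pd : ∀ k, ContDiffOn ℝ 1 (p k) Ω := fun k => cd_dir hΩ hφ (b k)
  set a : ι → E → ℝ := fun j x => ∑ k, p k x * g k j x with ha
  have ad : ∀ j, ContDiffOn ℝ 1 (a j) Ω := fun j =>
    ContDiffOn.sum fun k _ => (pd k).mul (h.hg k j)
  set q : E → ℝ := fun x => ∑ j, p j x * a j x with hq
  have qd : ContDiffOn ℝ 1 q Ω := ContDiffOn.sum fun j _ => (pd j).mul (ad j)
  have qpos : ∀ x ∈ Ω, 0 < q x := fun x hx => by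
    refine (h.pos x hx _ (hφ' x hx)).trans_eq ?_
    rw [Finset.sum_comm]
    refine Finset.sum_congr rfl fun j _ => ?_
    simp only [ha, Finset.mul_sum]
    exact Finset.sum_congr rfl fun k _ => by simp only [hp]; ring
  obtain ⟨c0, hc0, hc⟩ := h.unif hK hKΩ
  obtain ⟨q0, hq0, hql⟩ := hK.exists_forall_le' (qd.continuousOn.mono hKΩ)
    fun x hx => qpos x (hKΩ hx)
  obtain ⟨Q, hQ⟩ := bdd_on hK (qd.continuousOn.mono hKΩ)
  have dvc : ContinuousOn (fun x => ∑ j, fderiv ℝ (a j) x (b j)) Ω :=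
    continuousOn_finsetSum _ fun j _ => co_dir hΩ (ad j) (b j)
  obtain ⟨D, hD⟩ := bdd_on hK (dvc.mono hKΩ)
  obtain ⟨C1, hC1, H1⟩ := skew_sum μ hΩ hK hKΩ b
    (T := fun i j x => bf (s i x) (s j x) (g i j x))
    (fun i j => bf_cd (h.hs i) (h.hs j) (h.hg i j)) fun i j x hx => (h.cl x hx).skew i j
  have Td : ∀ j i, ContDiffOn ℝ 1
      (fun x => ((q x)⁻¹ * a j x) • ∑ k, p k x • bf (s k x) (s i x) (g k i x)) Ω := fun j i =>
    cd_smul ((qd.inv fun x hx => (qpos x hx).ne').mul (ad j))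
      (ContDiffOn.sum fun k _ => cd_smul (pd k) (bf_cd (h.hs k) (h.hs i) (h.hg k i)))
  obtain ⟨C2, hC2, H2⟩ := skew_sum μ hΩ hK hKΩ b
    (T := fun j i x => ((q x)⁻¹ * a j x) • ∑ k, p k x • bf (s k x) (s i x) (g k i x)) Td
    fun j i x hx v w => by
      simp only [smul_apply, sum_apply, smul_eq_mul]
      rw [← mul_neg, ← Finset.sum_neg_distrib]
      congr 1
      exact Finset.sum_congr rfl fun k _ => by rw [(h.cl x hx).skew k i v w]; ring
  set δ := c0 / (2 * (C1 + 1)) with hδ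
  have hδ0 : 0 < δ := by positivity
  set R := |D| + 8 * C2 * |Q| + 2 * C2 / c0 with hR
  have hR0 : 0 ≤ R := by positivity
  refine ⟨q0 / (2 * (R + 1)), by positivity, q0 / (2 * (1 + 8 * C2)), by positivity,
    4 * C2 * (C1 * δ⁻¹) / (1 + 8 * C2), fun T hT hT0 lam hlT v hv h0 hsup => ?_⟩
  have hlam : 0 ≤ lam := by
    by_contra hh
    nlinarith
  have hv1 : ContDiffOn ℝ 1 v Ω := hv.of_le (by norm_num)
  have φc := hφ.continuousOn
  have vc := hv.continuousOn
  have wc : ∀ i, ContinuousOn (fun x => fderiv ℝ v x (b i)) Ω := fun i => co_dir hΩ hv1 (b i)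
  have Lc : ContinuousOn (fun x => ∑ i, s i x (fderiv ℝ v x (b i))) Ω :=
    continuousOn_finsetSum _ fun i _ => (h.hs i).continuousOn.clm_apply (wc i)
  have Sc : ContinuousOn (fun x => ∑ k, p k x • s k x (v x)) Ω :=
    continuousOn_finsetSum _ fun k _ =>
      (pd k).continuousOn.smul ((h.hs k).continuousOn.clm_apply vc)
  set M : E → W := fun x => ∑ i, s i x (fderiv ℝ v x (b i))
    + (lam * (T - φ x)) • ∑ k, p k x • s k x (v x) with hM
  have Mc : ContinuousOn M Ω :=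
    Lc.add ((continuousOn_const.mul (continuousOn_const.sub φc)).smul Sc)
  have io : ∀ {f : E → ℝ}, ContinuousOn f Ω → IntegrableOn f K μ := fun hf =>
    (hf.mono hKΩ).integrableOn_compact hK
  have iv := io (f := fun x => ‖v x‖ ^ 2) (vc.norm.pow 2)
  have iM := io (f := fun x => ‖M x‖ ^ 2) (Mc.norm.pow 2)
  have ig := io (g2_co hΩ b hv1)
  have hmeas := hK.measurableSet
  refine carl_alg (bb := ∫ x in K, g2 b v x ∂μ) (D := |D|) (T := T) (Q := |Q|) (c0 := c0)
    (by positivity) hC2 (integral_nonneg fun _ => sq_nonneg _)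
    (integral_nonneg fun _ => sq_nonneg _) ?_ hlam hlT ?_ ?_
  · rw [le_div_iff₀ (by positivity)] at hT0
    nlinarith
  · have iB := io (f := fun x => ∑ i, ∑ j, bf (s i x) (s j x) (g i j x) (fderiv ℝ v x (b i))
        (fderiv ℝ v x (b j))) (continuousOn_finsetSum _ fun i _ => continuousOn_finsetSum _
        fun j _ => ((bf_cd (h.hs i) (h.hs j) (h.hg i j)).continuousOn.clm_apply (wc i)).clm_apply
          (wc j))
    have e1 := setIntegral_mono_on (iB.add (ig.const_mul c0))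
      ((iM.const_mul 2).add (iv.const_mul (2 * (lam * T) ^ 2 * |Q|))) hmeas fun x hx => by
        have f1 := norm_sum_sq (fun i => s i x) (fun i j => g i j x) fun i => fderiv ℝ v x (b i)
        have f2 := pos_vec (hc x hx) fun i => fderiv ℝ v x (b i)
        have f3 : ‖(lam * (T - φ x)) • ∑ k, p k x • s k x (v x)‖ ^ 2 ≤
            (lam * T) ^ 2 * |Q| * ‖v x‖ ^ 2 := by
          by_cases hx0 : v x = 0
          · simp [hx0]
          · obtain ⟨g1, g2⟩ := hsup x hx hx0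
            rw [norm_smul, mul_pow, ← real_inner_self_eq_norm_sq (∑ k, p k x • s k x (v x)),
              (h.cl x (hKΩ hx)).sym_inner (fun k => p k x), real_inner_self_eq_norm_sq,
              Real.norm_eq_abs, sq_abs, mul_assoc]
            refine mul_le_mul ?_ (mul_le_mul_of_nonneg_right
              ((le_abs_self _).trans ((hQ x hx).trans (le_abs_self Q))) (sq_nonneg _))
              (mul_nonneg (qpos x (hKΩ hx)).le (sq_nonneg _)) (sq_nonneg _)
            exact pow_le_pow_left₀ (mul_nonneg hlam (by linarith))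
              (mul_le_mul_of_nonneg_left (by linarith) hlam) 2
        have f4 : ∑ i, s i x (fderiv ℝ v x (b i)) =
            M x - (lam * (T - φ x)) • ∑ k, p k x • s k x (v x) := by simp [hM]
        have f5 : ‖∑ i, s i x (fderiv ℝ v x (b i))‖ ≤
            ‖M x‖ + ‖(lam * (T - φ x)) • ∑ k, p k x • s k x (v x)‖ := by
          rw [f4]; exact norm_sub_le _ _
        have f6 := pow_le_pow_left₀ (norm_nonneg _) f5 2
        simp only [Pi.add_apply, g2]
        nlinarith [sq_nonneg (‖M x‖ - ‖(lam * (T - φ x)) • ∑ k, p k x • s k x (v x)‖)]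
    simp only [Pi.add_apply] at e1
    rw [integral_add iB (ig.const_mul c0), integral_add (iM.const_mul 2) (iv.const_mul _),
      integral_const_mul, integral_const_mul, integral_const_mul] at e1
    have e2 := (abs_le.1 (H1 v hv h0 δ hδ0)).1
    have e3 : C1 * δ ≤ c0 / 2 := by
      rw [hδ, ← mul_div_assoc, div_le_div_iff₀ (by positivity) (by positivity)]; nlinarith
    have e4 := mul_le_mul_of_nonneg_right e3
      (integral_nonneg (μ := μ.restrict K) (f := g2 b v) fun x =>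
        Finset.sum_nonneg fun _ _ => sq_nonneg _)
    nlinarith
  · have Fd : ∀ j, ContDiffOn ℝ 1 (fun x => (T - φ x) * a j x * ⟪v x, v x⟫) Ω := fun j =>
      ((contDiffOn_const.sub (hφ.of_le (by norm_num))).mul (ad j)).mul (hv1.inner ℝ hv1)
    have hI : ∫ x in K, ∑ j, fderiv ℝ (fun x => (T - φ x) * a j x * ⟪v x, v x⟫) x (b j) ∂μ
        = 0 := by
      rw [integral_finsetSum _ fun j _ => io (co_dir hΩ (Fd j) (b j))]
      exact Finset.sum_eq_zero fun j _ =>
        int_div μ hΩ hK hKΩ (Fd j) (fun x hx hx' => by simp [h0 x hx hx']) (b j)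
    have iF := io (continuousOn_finsetSum Finset.univ fun j _ => co_dir hΩ (Fd j) (b j))
    have iT := io (f := fun x => ∑ j, ∑ i, (((q x)⁻¹ * a j x) •
        ∑ k, p k x • bf (s k x) (s i x) (g k i x)) (fderiv ℝ v x (b j)) (fderiv ℝ v x (b i)))
      (continuousOn_finsetSum _ fun j _ => continuousOn_finsetSum _ fun i _ =>
        ((Td j i).continuousOn.clm_apply (wc j)).clm_apply (wc i))
    have e1 := setIntegral_mono_on (((iT.const_mul 2).add (iF.const_mul lam)).add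
      (iv.const_mul (lam * (q0 - T * |D|)))) iM hmeas fun x hx => by
        have hn := hΩ.mem_nhds (hKΩ hx)
        have f1 := (h.cl x (hKΩ hx)).carl (fun k => p k x) (fun i => fderiv ℝ v x (b i)) (v x)
          (lam * (T - φ x)) (qpos x (hKΩ hx)).ne'
        have d1 := ((hφ.contDiffAt hn).differentiableAt two_ne_zero).hasFDerivAt
        have d2 := ((hv1.contDiffAt hn).differentiableAt one_ne_zero).hasFDerivAt
        have f2 : ∑ j, fderiv ℝ (fun x => (T - φ x) * a j x * ⟪v x, v x⟫) x (b j) =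
            -(q x * ‖v x‖ ^ 2) + (T - φ x) * (∑ j, fderiv ℝ (a j) x (b j)) * ‖v x‖ ^ 2
              + 2 * (T - φ x) * ∑ j, a j x * ⟪fderiv ℝ v x (b j), v x⟫ := by
          simp only [hq, Finset.sum_mul, Finset.mul_sum, ← Finset.sum_neg_distrib,
            ← Finset.sum_add_distrib]
          refine Finset.sum_congr rfl fun j _ => ?_
          have d3 := (((ad j).contDiffAt hn).differentiableAt one_ne_zero).hasFDerivAt
          have := (((d1.const_sub T).mul d3).mul (d2.inner ℝ d2)).fderiv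
          erw [this]
          simp [hp, real_inner_comm]
          ring
        have f3 : lam * (q0 - T * |D|) * ‖v x‖ ^ 2 ≤
            lam * (q x - (T - φ x) * ∑ j, fderiv ℝ (a j) x (b j)) * ‖v x‖ ^ 2 := by
          by_cases hx0 : v x = 0
          · simp [hx0]
          · obtain ⟨g1, g2⟩ := hsup x hx hx0
            refine mul_le_mul_of_nonneg_right (mul_le_mul_of_nonneg_left ?_ hlam) (sq_nonneg _)
            have g3 : ∑ j, fderiv ℝ (a j) x (b j) ≤ |D| :=
              (le_abs_self _).trans ((hD x hx).trans (le_abs_self D))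
            have g4 := mul_le_mul_of_nonneg_left g3 (by linarith : 0 ≤ T - φ x)
            nlinarith [hql x hx, abs_nonneg D]
        simp only [Pi.add_apply]
        rw [f2]
        have f4 : lam * (q x - (T - φ x) * ∑ j, fderiv ℝ (a j) x (b j)) * ‖v x‖ ^ 2 =
            lam * (q x * ‖v x‖ ^ 2) - lam * ((T - φ x) * (∑ j, fderiv ℝ (a j) x (b j))
              * ‖v x‖ ^ 2) := by ring
        change 2 * ∑ j, ∑ i, (((q x)⁻¹ * a j x) • ∑ k, p k x • bf (s k x) (s i x) (g k i x))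
          (fderiv ℝ v x (b j)) (fderiv ℝ v x (b i)) + 2 * (lam * (T - φ x)) *
            ∑ j, a j x * ⟪fderiv ℝ v x (b j), v x⟫ ≤ ‖M x‖ ^ 2 at f1
        linarith
    simp only [Pi.add_apply] at e1
    rw [integral_add (by exact (iT.const_mul 2).add (iF.const_mul lam)) (iv.const_mul _),
      integral_add (iT.const_mul 2) (iF.const_mul lam), integral_const_mul, integral_const_mul,
      integral_const_mul, hI] at e1
    have e2 := (abs_le.1 (H2 v hv h0 (c0 / (lam * T)) (by positivity))).1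
    linarith

end Crest.Agent.X212.Ucp64
end

-- ▼ part X212/Ucp64/Loc
section

/-!
# Unique continuation for Dirac type systems on open sets of a vector space
-/

namespace Crest.Agent.X212.Ucp64

open Set MeasureTheory Filter Topology
open scoped RealInnerProductSpace

variable {E : Type*} [NormedAddCommGroup E] [NormedSpace ℝ E] [FiniteDimensional ℝ E]
  {V W : Type*} [NormedAddCommGroup V] [InnerProductSpace ℝ V] [FiniteDimensional ℝ V]
  [NormedAddCommGroup W] [InnerProductSpace ℝ W] {ι : Type*} [Fintype ι] {Ω K : Set E}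

/-- the cut-off: `1` for `t ≤ T/2`, `0` for `t ≥ T` -/
theorem exists_cut {T : ℝ} (hT : 0 < T) : ∃ χ : ℝ → ℝ, ContDiff ℝ 2 χ ∧ (∀ t, t ≤ T / 2 → χ t = 1) ∧
    (∀ t, T ≤ t → χ t = 0) ∧ ∃ B, ∀ lam, 0 ≤ lam → ∀ t,
      (deriv χ t * Real.exp (lam * (T - t) ^ 2 / 2)) ^ 2 ≤ B * Real.exp (lam * T ^ 2 / 4) := by
  set χ : ℝ → ℝ := fun t => Real.smoothTransition (2 * (T - t) / T) with hχ
  have hd : ContDiff ℝ 2 χ := (Real.smoothTransition.contDiff (n := 2)).comp (by fun_prop)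
  have h1 : ∀ t, t ≤ T / 2 → χ t = 1 := fun t ht =>
    Real.smoothTransition.one_of_one_le (by rw [le_div_iff₀ hT]; linarith)
  have h0 : ∀ t, T ≤ t → χ t = 0 := fun t ht =>
    Real.smoothTransition.zero_of_nonpos (div_nonpos_of_nonpos_of_nonneg (by linarith) hT.le)
  obtain ⟨B, hB⟩ := bdd_on (isCompact_Icc (a := T / 2) (b := T))
    (hd.continuous_deriv (by norm_num)).continuousOn
  refine ⟨χ, hd, h1, h0, B ^ 2, fun lam hlam t => ?_⟩
  rcases lt_or_ge t (T / 2) with h | h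
  · have : χ =ᶠ[𝓝 t] fun _ => 1 := (eventually_lt_nhds h).mono fun s hs => h1 s hs.le
    rw [this.deriv_eq]; simp; positivity
  rcases lt_or_ge T t with h' | h'
  · have : χ =ᶠ[𝓝 t] fun _ => 0 := (eventually_gt_nhds h').mono fun s hs => h0 s hs.le
    rw [this.deriv_eq]; simp; positivity
  rw [mul_pow, ← Real.exp_nat_mul]
  refine mul_le_mul ?_ (Real.exp_le_exp.2 ?_) (Real.exp_pos _).le (sq_nonneg _)
  · rw [← sq_abs]; exact pow_le_pow_left₀ (abs_nonneg _) (hB t ⟨h, h'⟩) 2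
  · have : (T - t) ^ 2 ≤ (T / 2) ^ 2 := pow_le_pow_left₀ (by linarith) (by linarith) 2
    push_cast
    nlinarith [mul_le_mul_of_nonneg_left this hlam]

/-- One step: a solution vanishing on `{φ < 0}` vanishes on `{φ < T}`. -/
theorem shell (hΩ : IsOpen Ω) (hK : IsCompact K) (hKΩ : K ⊆ Ω) (b : ι → E)
    {s : ι → E → V →L[ℝ] W} {g : ι → ι → E → ℝ} (h : Op Ω s g) {φ : E → ℝ}
    (hφ : ContDiffOn ℝ 2 φ Ω) (hφ' : ∀ x ∈ Ω, (fun i => fderiv ℝ φ x (b i)) ≠ 0) {T1 : ℝ}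
    (hT1 : 0 < T1) (hKφ : ∀ x ∈ Ω, 0 ≤ φ x → φ x ≤ T1 → x ∈ K) {u : E → V}
    (hu : ContDiffOn ℝ 2 u Ω) {C : ℝ}
    (hL : ∀ x ∈ K, ‖∑ i, s i x (fderiv ℝ u x (b i))‖ ≤ C * ‖u x‖)
    (h0 : ∀ x ∈ Ω, φ x < 0 → u x = 0) : ∃ T > 0, ∀ x ∈ Ω, φ x < T → u x = 0 := by
  borelize E
  set μ : Measure E := Measure.addHaar
  obtain ⟨T0, hT0, c, hc, C0, H⟩ := carleman μ hΩ hK hKΩ b h hφ hφ'
  set T := min T0 T1 with hTd
  have hT : 0 < T := lt_min hT0 hT1
  obtain ⟨χ, hχ, χ1, χ0, B, hB⟩ := exists_cut hT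
  have io : ∀ {f : E → ℝ}, ContinuousOn f Ω → IntegrableOn f K μ := fun hf =>
    (hf.mono hKΩ).integrableOn_compact hK
  have Sc : ContinuousOn (fun x => ∑ k, fderiv ℝ φ x (b k) • s k x (u x)) Ω :=
    continuousOn_finsetSum _ fun k _ => (cd_dir hΩ hφ (b k)).continuousOn.smul
      ((h.hs k).continuousOn.clm_apply hu.continuousOn)
  set f : E → ℝ := fun x => min 1 (max 0 (T / 2 - φ x)) * ‖u x‖ ^ 2 with hf
  have fc : ContinuousOn f Ω := (continuousOn_const.inf (continuousOn_const.sup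
    (continuousOn_const.sub hφ.continuousOn))).mul (hu.continuousOn.norm.pow 2)
  have f0 : ∀ x, 0 ≤ f x := fun x =>
    mul_nonneg (le_min zero_le_one (le_max_left _ _)) (sq_nonneg _)
  set J := ∫ x in K, f x ∂μ with hJ
  set D := ∫ x in K, ‖∑ k, fderiv ℝ φ x (b k) • s k x (u x)‖ ^ 2 ∂μ
  have hJ0 : 0 ≤ J := integral_nonneg f0
  have main : ∀ lam, 1 ≤ lam * T → 0 ≤ c * lam - C0 - 2 * C ^ 2 →
      (c * lam - C0 - 2 * C ^ 2) * J ≤ 2 * B * D := by
    intro lam hl hl'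
    have hlam : 0 ≤ lam := by
      by_contra hh
      nlinarith
    set w : ℝ → ℝ := fun t => Real.exp (lam * (T - t) ^ 2 / 2) with hw
    set ψ : ℝ → ℝ := fun t => χ t * w t with hψ
    have ψd : ContDiff ℝ 2 ψ := hχ.mul (by simp only [hw]; fun_prop)
    have ψ' : ∀ t, HasDerivAt ψ (deriv χ t * w t - lam * (T - t) * ψ t) t := fun t => by
      have d1 := (hχ.differentiable two_ne_zero t).hasDerivAt
      have d2 := (((((hasDerivAt_id t).const_sub T).pow 2).const_mul lam).div_const 2).exp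
      exact (d1.mul d2).congr_deriv (by simp [hw, hψ]; ring)
    set v : E → V := fun x => ψ (φ x) • u x with hv
    have vd : ContDiffOn ℝ 2 v Ω := (ψd.comp_contDiffOn hφ).smul hu
    have vs : ∀ x ∈ Ω, v x ≠ 0 → 0 ≤ φ x ∧ φ x ≤ T := fun x hx hne =>
      ⟨not_lt.1 fun h' => hne (by simp [hv, h0 x hx h']),
        not_lt.1 fun h' => hne (by simp [hv, hψ, χ0 _ h'.le])⟩
    have v0 : ∀ x ∈ Ω, x ∉ K → v x = 0 := fun x hx hxK => by
      by_contra hne
      exact hxK (hKφ x hx (vs x hx hne).1 ((vs x hx hne).2.trans (min_le_right _ _)))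
    have H1 := H T hT (min_le_left _ _) lam hl v vd v0 fun x hx => vs x (hKΩ hx)
    have iv := io (f := fun x => ‖v x‖ ^ 2) (vd.continuousOn.norm.pow 2)
    have iS := io (f := fun x => ‖∑ k, fderiv ℝ φ x (b k) • s k x (u x)‖ ^ 2) (Sc.norm.pow 2)
    have H2 := integral_mono_of_nonneg (μ := μ.restrict K)
      (f := fun x => ‖∑ i, s i x (fderiv ℝ v x (b i))
          + (lam * (T - φ x)) • ∑ k, fderiv ℝ φ x (b k) • s k x (v x)‖ ^ 2)
      (Eventually.of_forall fun _ => sq_nonneg _)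
      ((iv.const_mul (2 * C ^ 2)).add (iS.const_mul (2 * B * Real.exp (lam * T ^ 2 / 4))))
      ((ae_restrict_iff' hK.measurableSet).2 (Eventually.of_forall fun x hx => by
        have hn := hΩ.mem_nhds (hKΩ hx)
        have d1 := ((hφ.contDiffAt hn).differentiableAt two_ne_zero).hasFDerivAt
        have d2 := ((hu.contDiffAt hn).differentiableAt two_ne_zero).hasFDerivAt
        have d3 := (((ψ' (φ x)).comp_hasFDerivAt x d1).smul d2).fderiv
        have e1 : ∑ i, s i x (fderiv ℝ v x (b i))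
            + (lam * (T - φ x)) • ∑ k, fderiv ℝ φ x (b k) • s k x (v x) =
            ψ (φ x) • ∑ i, s i x (fderiv ℝ u x (b i))
              + (deriv χ (φ x) * w (φ x)) • ∑ k, fderiv ℝ φ x (b k) • s k x (u x) := by
          erw [d3]
          simp only [hv, Finset.smul_sum, ← Finset.sum_add_distrib]
          refine Finset.sum_congr rfl fun i _ => ?_
          simp only [add_apply, smul_apply, ContinuousLinearMap.smulRight_apply, map_add, map_smul,
            Function.comp, smul_eq_mul, smul_smul]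
          module
        have e2 : ‖ψ (φ x) • ∑ i, s i x (fderiv ℝ u x (b i))‖ ^ 2 ≤ C ^ 2 * ‖v x‖ ^ 2 := by
          simp only [hv, norm_smul, mul_pow]
          have := pow_le_pow_left₀ (norm_nonneg _) (hL x hx) 2
          nlinarith [sq_nonneg ‖ψ (φ x)‖]
        have e3 : ‖(deriv χ (φ x) * w (φ x)) • ∑ k, fderiv ℝ φ x (b k) • s k x (u x)‖ ^ 2 ≤
            B * Real.exp (lam * T ^ 2 / 4) * ‖∑ k, fderiv ℝ φ x (b k) • s k x (u x)‖ ^ 2 := by
          rw [norm_smul, mul_pow, Real.norm_eq_abs, sq_abs]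
          exact mul_le_mul_of_nonneg_right (hB lam hlam _) (sq_nonneg _)
        simp only [Pi.add_apply]
        rw [e1]
        set A1 := ψ (φ x) • ∑ i, s i x (fderiv ℝ u x (b i))
        set A2 := (deriv χ (φ x) * w (φ x)) • ∑ k, fderiv ℝ φ x (b k) • s k x (u x)
        have := pow_le_pow_left₀ (norm_nonneg _) (norm_add_le A1 A2) 2
        nlinarith [sq_nonneg (‖A1‖ - ‖A2‖)]))
    simp only [Pi.add_apply] at H2
    rw [integral_add (iv.const_mul _) (iS.const_mul _), integral_const_mul,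
      integral_const_mul] at H2
    have H3 := setIntegral_mono_on ((io fc).const_mul (Real.exp (lam * T ^ 2 / 4))) iv
      hK.measurableSet fun x _ => by
        rcases le_or_gt (T / 2) (φ x) with h' | h'
        · simp only [hf, max_eq_left (sub_nonpos.2 h'), min_eq_right zero_le_one, zero_mul,
            mul_zero]
          positivity
        · simp only [hv, hψ, χ1 _ h'.le, one_mul, norm_smul, mul_pow, Real.norm_eq_abs, sq_abs, hw]
          rw [← Real.exp_nat_mul]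
          refine mul_le_mul (Real.exp_le_exp.2 ?_)
            (mul_le_of_le_one_left (sq_nonneg _) (min_le_left _ _)) (f0 x) (Real.exp_pos _).le
          have : (T / 2) ^ 2 ≤ (T - φ x) ^ 2 := pow_le_pow_left₀ (by linarith) (by linarith) 2
          push_cast
          nlinarith [mul_le_mul_of_nonneg_left this hlam]
    rw [integral_const_mul] at H3
    have H4 := mul_le_mul_of_nonneg_left H3 hl'
    have he := Real.exp_pos (lam * T ^ 2 / 4)
    refine le_of_mul_le_mul_left ?_ he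
    nlinarith
  have hJz : J = 0 := by
    by_contra hne
    have hp : 0 < J := lt_of_le_of_ne hJ0 (Ne.symm hne)
    set lam := max (1 / T) ((|2 * B * D| / J + 1 + C0 + 2 * C ^ 2) / c)
    have l1 : 1 ≤ lam * T := (div_le_iff₀ hT).1 (le_max_left _ _)
    have l2 : |2 * B * D| / J + 1 + C0 + 2 * C ^ 2 ≤ lam * c :=
      (div_le_iff₀ hc).1 (le_max_right _ _)
    have l3 : 0 ≤ |2 * B * D| / J := by positivity
    have l4 := main lam l1 (by linarith)
    have l5 : (|2 * B * D| / J + 1) * J ≤ (c * lam - C0 - 2 * C ^ 2) * J :=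
      mul_le_mul_of_nonneg_right (by linarith) hJ0
    rw [add_mul, div_mul_cancel₀ _ hne] at l5
    linarith [le_abs_self (2 * B * D)]
  have a1 := (setIntegral_eq_zero_iff_of_nonneg_ae (Eventually.of_forall f0) (io fc)).1 hJz
  have a2 : f =ᵐ[μ.restrict Ω] fun _ => 0 := by
    refine (ae_restrict_iff' hΩ.measurableSet).2
      (((ae_restrict_iff' hK.measurableSet).1 a1).mono fun x hx hxΩ => ?_)
    by_cases hxK : x ∈ K
    · exact hx hxK
    · rcases lt_or_ge (φ x) 0 with h' | h'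
      · simp [hf, h0 x hxΩ h']
      · have : T / 2 - φ x ≤ 0 := by
          have := not_le.1 fun h'' => hxK (hKφ x hxΩ h' h'')
          linarith [min_le_right T0 T1]
        simp [hf, max_eq_left this]
  refine ⟨T / 2, half_pos hT, fun x hx hx' => ?_⟩
  have := Measure.eqOn_open_of_ae_eq a2 hΩ fc continuousOn_const hx
  rcases mul_eq_zero.1 this with h' | h'
  · exact absurd h' (lt_min zero_lt_one (lt_max_of_lt_right (sub_pos.2 hx'))).ne'
  · simpa using h'

theorem unif_bound {X : Type*} [TopologicalSpace X] {K : Set X} (hK : IsCompact K) {f g : X → ℝ}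
    (hg : ∀ x, 0 ≤ g x) (h : ∀ x ∈ K, ∃ C, ∀ᶠ y in 𝓝 x, f y ≤ C * g y) :
    ∃ C, ∀ y ∈ K, f y ≤ C * g y := by
  refine hK.induction_on (p := fun A => ∃ C, ∀ y ∈ A, f y ≤ C * g y) ⟨0, fun _ h => h.elim⟩
    (fun _ _ hs ⟨C, hC⟩ => ⟨C, fun y hy => hC y (hs hy)⟩) (fun _ _ ⟨C, hC⟩ ⟨C', hC'⟩ =>
      ⟨max C C', fun y hy => hy.elim (fun hy => (hC y hy).trans
        (mul_le_mul_of_nonneg_right (le_max_left _ _) (hg y))) fun hy => (hC' y hy).trans
        (mul_le_mul_of_nonneg_right (le_max_right _ _) (hg y))⟩) fun x hx => ?_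
  obtain ⟨C, hC⟩ := h x hx
  exact ⟨_, nhdsWithin_le_nhds hC, C, fun y hy => hy⟩

/-- Euclidean balls centred at a point near which the solution vanishes. -/
theorem ball_zero {b : ι → E} (hb : Submodule.span ℝ (range b) = ⊤)
    {s : ι → E → V →L[ℝ] W} {g : ι → ι → E → ℝ} (h : Op Ω s g) {u : E → V}
    (hu : ContDiffOn ℝ 2 u Ω)
    (hL : ∀ x ∈ Ω, ∃ C, ∀ᶠ y in 𝓝 x, ‖∑ i, s i y (fderiv ℝ u y (b i))‖ ≤ C * ‖u y‖)
    {y : E} (hy : u =ᶠ[𝓝 y] 0) {R : ℝ} (hR : ∀ x, ‖toEuclidean (x - y)‖ < R → x ∈ Ω) :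
    ∀ x, ‖toEuclidean (x - y)‖ < R → u x = 0 := by
  set d : E → ℝ := fun x => ‖toEuclidean (x - y)‖ with hd
  have dc : Continuous d := by simp only [hd]; fun_prop
  have hcp : ∀ r, IsCompact {x | d x ≤ r} := fun r => by
    have : {x | d x ≤ r} = (fun z => toEuclidean.symm z + y) '' Metric.closedBall 0 r := by
      ext x
      simp only [mem_ofPred_eq, mem_image, mem_closedBall_zero_iff, hd]
      exact ⟨fun hx => ⟨_, hx, by simp⟩, by rintro ⟨z, hz, rfl⟩; simpa using hz⟩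
    rw [this]
    exact (isCompact_closedBall _ _).image (by fun_prop)
  set S := {ρ | ρ ≤ R ∧ ∀ x, d x < ρ → u x = 0} with hS
  intro x0 hx0
  have hR0 : 0 < R := (norm_nonneg _).trans_lt hx0
  obtain ⟨r0, hr0, hr0S⟩ : ∃ r0 > 0, r0 ∈ S := by
    have : ∀ᶠ z in 𝓝 (0 : EuclideanSpace ℝ (Fin (Module.finrank ℝ E))),
        u (toEuclidean.symm z + y) = 0 := by
      refine (ContinuousAt.tendsto (f := fun z => toEuclidean.symm z + y)
        (by fun_prop)).eventually (p := fun x => u x = 0) ?_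
      simp only [map_zero, zero_add]
      exact hy
    obtain ⟨ε, hε, h1⟩ := Metric.eventually_nhds_iff.1 this
    refine ⟨min ε R, lt_min hε hR0, min_le_right _ _, fun x hx => ?_⟩
    simpa using h1 (y := toEuclidean (x - y)) (by
      rw [dist_zero_right]; exact hx.trans_le (min_le_left _ _))
  have hbdd : BddAbove S := ⟨R, fun _ h => h.1⟩
  set ρ := sSup S with hρ
  have hρ0 : 0 < ρ := hr0.trans_le (le_csSup hbdd hr0S)
  have hρz : ∀ x, d x < ρ → u x = 0 := fun x hx => by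
    obtain ⟨r, hr, hxr⟩ := exists_lt_of_lt_csSup ⟨r0, hr0S⟩ hx
    exact hr.2 x hxr
  refine hρz x0 (hx0.trans_le (not_lt.1 fun hlt => ?_))
  set Ω' := {x | d x < R} ∩ {y}ᶜ with hΩ'
  have hsub : Ω' ⊆ Ω := fun x hx => hR x hx.1
  have ho : IsOpen Ω' := (isOpen_lt dc continuous_const).inter isOpen_compl_singleton
  set m := (ρ + R) / 2 with hm
  have hK : IsCompact ({x | d x ≤ m} ∩ {x | ρ ≤ d x}) :=
    (hcp m).inter_right (isClosed_le continuous_const dc)
  have hKΩ : {x | d x ≤ m} ∩ {x | ρ ≤ d x} ⊆ Ω' := fun x hx =>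
    ⟨lt_of_le_of_lt (b := m) hx.1 (by linarith), fun hxy => by
      have := hx.2
      rw [mem_singleton_iff.1 hxy] at this
      simp only [hd, mem_ofPred_eq, sub_self, map_zero, norm_zero] at this
      linarith⟩
  obtain ⟨C, hC⟩ := unif_bound hK (fun x => norm_nonneg (u x)) fun x hx => hL x (hsub (hKΩ hx))
  have hA : ∀ x, HasFDerivAt (fun x => toEuclidean (x - y))
      (toEuclidean (E := E)).toContinuousLinearMap x := fun x =>
    ((toEuclidean (E := E)).hasFDerivAt.comp x ((hasFDerivAt_id x).sub_const y)).congr_fderiv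
      (by simp)
  have dn : ∀ x, 0 ≤ d x := fun x => norm_nonneg _
  obtain ⟨T, hT, hz⟩ := shell ho hK hKΩ b (h.mono hsub) (φ := fun x => d x ^ 2 - ρ ^ 2)
    (ContDiff.contDiffOn (by
      simp only [hd]
      exact (ContDiff.norm_sq ℝ (by fun_prop)).sub contDiff_const))
    (fun x hx hne => by
      have e := ((hA x).norm_sq.sub_const (ρ ^ 2)).fderiv
      have e2 : fderiv ℝ (fun x => d x ^ 2 - ρ ^ 2) x = 0 := by
        refine ContinuousLinearMap.ext_on (s := range b) (by simp [hb]) ?_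
        rintro _ ⟨i, rfl⟩
        exact congrFun hne i
      have e3 := congrArg (fun L => L (x - y)) (e.symm.trans e2)
      simp [-map_sub] at e3
      exact hx.2 (sub_eq_zero.1 e3))
    (T1 := m ^ 2 - ρ ^ 2) (by nlinarith)
    (fun x _ h1 h2 => ⟨(abs_le_of_sq_le_sq' (a := d x) (b := m) (by linarith) (by linarith)).2,
      (abs_le_of_sq_le_sq' (a := ρ) (b := d x) (by linarith) (dn x)).2⟩)
    (hu.mono hsub) hC fun x _ hx => hρz x (lt_of_pow_lt_pow_left₀ 2 hρ0.le (by linarith))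
  have hmem : min R √(ρ ^ 2 + T) ∈ S := ⟨min_le_left _ _, fun x hx => by
    by_cases hxy : x = y
    · rw [hxy]; exact hy.self_of_nhds
    · refine hz x ⟨hx.trans_le (min_le_left _ _), hxy⟩ ?_
      have := Real.lt_sqrt (dn x) |>.1 (hx.trans_le (min_le_right _ _))
      linarith⟩
  have h1 : ρ < √(ρ ^ 2 + T) := Real.lt_sqrt hρ0.le |>.2 (by linarith)
  exact absurd (le_csSup hbdd hmem) (not_le.2 (lt_min hlt h1))

/-- The set of points near which a solution vanishes is relatively closed. -/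
theorem ev_zero_of_closure (hΩ : IsOpen Ω) {b : ι → E} (hb : Submodule.span ℝ (range b) = ⊤)
    {s : ι → E → V →L[ℝ] W} {g : ι → ι → E → ℝ} (h : Op Ω s g) {u : E → V}
    (hu : ContDiffOn ℝ 2 u Ω)
    (hL : ∀ x ∈ Ω, ∃ C, ∀ᶠ y in 𝓝 x, ‖∑ i, s i y (fderiv ℝ u y (b i))‖ ≤ C * ‖u y‖)
    {x : E} (hx : x ∈ Ω) (hc : x ∈ closure {y | u =ᶠ[𝓝 y] 0}) : u =ᶠ[𝓝 x] 0 := by
  have h1 : ∀ᶠ z in 𝓝 (0 : EuclideanSpace ℝ (Fin (Module.finrank ℝ E))),
      toEuclidean.symm z + x ∈ Ω := by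
    refine (ContinuousAt.tendsto (f := fun z => toEuclidean.symm z + x)
      (by fun_prop)).eventually (p := fun x => x ∈ Ω) ?_
    simpa using hΩ.mem_nhds hx
  obtain ⟨ε, hε, h1⟩ := Metric.eventually_nhds_iff.1 h1
  have ho : ∀ y, IsOpen {z : E | ‖toEuclidean (z - y)‖ < ε / 2} := fun y =>
    isOpen_lt (by fun_prop) continuous_const
  obtain ⟨y, hy1, hy2⟩ := mem_closure_iff.1 hc _ (ho x) (by simpa using hε)
  have hy3 : ‖toEuclidean (x - y)‖ < ε / 2 := by
    rw [← norm_neg, ← map_neg, neg_sub]; exact hy1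
  have := ball_zero hb h hu hL hy2 (R := ε / 2) fun z hz => by
    simpa using h1 (y := toEuclidean (z - x)) (by
      rw [dist_zero_right, show z - x = (z - y) + (y - x) by abel, map_add]
      exact (norm_add_le _ _).trans_lt (by linarith [hy1.out]))
  exact mem_of_superset ((ho y).mem_nhds hy3) this

/-- **Unique continuation** on a connected open set. -/
theorem ucp (hΩ : IsOpen Ω) (hc : IsPreconnected Ω) {b : ι → E}
    (hb : Submodule.span ℝ (range b) = ⊤) {s : ι → E → V →L[ℝ] W} {g : ι → ι → E → ℝ}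
    (h : Op Ω s g) {u : E → V} (hu : ContDiffOn ℝ 2 u Ω)
    (hL : ∀ x ∈ Ω, ∃ C, ∀ᶠ y in 𝓝 x, ‖∑ i, s i y (fderiv ℝ u y (b i))‖ ≤ C * ‖u y‖)
    {y : E} (hy : y ∈ Ω) (h0 : u =ᶠ[𝓝 y] 0) : ∀ x ∈ Ω, u x = 0 := fun _ hx =>
  (hc.subset_of_closure_inter_subset (u := {y | u =ᶠ[𝓝 y] 0}) isOpen_setOfPred_eventually_nhds
    ⟨y, hy, h0⟩ (fun _ hz => ev_zero_of_closure hΩ hb h hu hL hz.2 hz.1) hx).self_of_nhds

end Crest.Agent.X212.Ucp64
end

-- ▼ part X212/Ucp64/Man

/-!
# Unique continuation: spanning frames, projector bundles, manifolds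
-/

namespace Crest.Agent.X212.Ucp64

open Set Filter Topology
open scoped RealInnerProductSpace Manifold ContDiff

section frame

variable {E : Type*} [NormedAddCommGroup E] [NormedSpace ℝ E] [FiniteDimensional ℝ E]
  {V W : Type*} [NormedAddCommGroup V] [InnerProductSpace ℝ V] [FiniteDimensional ℝ V]
  [NormedAddCommGroup W] [InnerProductSpace ℝ W] {ι : Type*} [Fintype ι] {Ω : Set E}

/-- `W ⊕ V^ι` with the `L²` inner product -/
abbrev Big (W V ι : Type*) := WithLp 2 (W × PiLp 2 fun _ : ι => V)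

/-- the identification with the plain product -/
noncomputable def big (W V ι : Type*) [NormedAddCommGroup V] [InnerProductSpace ℝ V]
    [NormedAddCommGroup W] [InnerProductSpace ℝ W] [Fintype ι] : (W × (ι → V)) →L[ℝ] Big W V ι :=
  (WithLp.prodContinuousLinearEquiv 2 ℝ W (PiLp 2 fun _ : ι => V)).symm.toContinuousLinearMap ∘L
    ((ContinuousLinearMap.id ℝ W).prodMap
      (PiLp.continuousLinearEquiv 2 ℝ fun _ : ι => V).symm.toContinuousLinearMap)

omit [FiniteDimensional ℝ V] in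
theorem inner_big (x y : W × (ι → V)) :
    ⟪big W V ι x, big W V ι y⟫ = ⟪x.1, y.1⟫ + ∑ a, ⟪x.2 a, y.2 a⟫ := by
  simp [big, PiLp.inner_apply]

theorem ev_zero_frame (hΩ : IsOpen Ω) {e : ι → E → E} (he : ∀ a, ContDiffOn ℝ 1 (e a) Ω)
    (hsp : ∀ x ∈ Ω, Submodule.span ℝ (range fun a => e a x) = ⊤) {P : ι → ι → E → ℝ}
    (hP : ∀ x ∈ Ω, ∀ a, ∑ c, P a c x • e c x = e a x) {σ : ι → E → V →L[ℝ] W}
    (hσ : ∀ a, ContDiffOn ℝ 1 (σ a) Ω) {p : E → V →L[ℝ] V} (hp : ContDiffOn ℝ 1 p Ω)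
    (idem : ∀ x ∈ Ω, ∀ v, p x (p x v) = p x v) (symm : ∀ x ∈ Ω, ∀ v w, ⟪p x v, w⟫ = ⟪v, p x w⟫)
    (hcl : ∀ x ∈ Ω, ∀ a c v w,
      ⟪σ a x v, σ c x w⟫ + ⟪σ c x v, σ a x w⟫ = 2 * P a c x * ⟪p x v, w⟫)
    {u : E → V} (hu : ContDiffOn ℝ 2 u Ω) (hpu : ∀ x ∈ Ω, p x (u x) = u x)
    (hL : ∀ x ∈ Ω, ∃ C, ∀ᶠ y in 𝓝 x, ‖∑ a, σ a y (fderiv ℝ u y (e a y))‖ ≤ C * ‖u y‖)
    {x : E} (hx : x ∈ Ω) (hc : x ∈ closure {y | u =ᶠ[𝓝 y] 0}) : u =ᶠ[𝓝 x] 0 := by
  set b := Module.finBasis ℝ E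
  set ε : ι → Fin (Module.finrank ℝ E) → E → ℝ := fun a i x => b.repr (e a x) i with hε
  have εd : ∀ a i, ContDiffOn ℝ 1 (ε a i) Ω := fun a i =>
    (LinearMap.toContinuousLinearMap (b.coord i)).contDiff.comp_contDiffOn (he a)
  set s : Fin (Module.finrank ℝ E) → E → V →L[ℝ] Big W V ι := fun i x =>
    big W V ι ∘L (∑ a, ε a i x • σ a x).prod
      (ContinuousLinearMap.pi fun a => ε a i x • (ContinuousLinearMap.id ℝ V - p x)) with hs
  have sa : ∀ i x v, s i x v =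
      big W V ι (∑ a, ε a i x • σ a x v, fun a => ε a i x • (v - p x v)) := fun i x v => by
    simp only [hs, ContinuousLinearMap.comp_apply, ContinuousLinearMap.prod_apply, sum_apply,
      smul_apply]
    rfl
  have hop : Op Ω s fun i j x => ∑ a, ε a i x * ε a j x := by
    refine ⟨fun i => contDiffOn_clm_apply.2 fun v => ?_,
      fun i j => ContDiffOn.sum fun a _ => (εd a i).mul (εd a j), fun x hx i j v w => ?_,
      fun x hx ξ hξ => ?_⟩
    · simp only [sa]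
      exact (big W V ι).contDiff.comp_contDiffOn
        ((ContDiffOn.sum fun a _ => (εd a i).smul ((hσ a).clm_apply contDiffOn_const)).prodMk
          (contDiffOn_pi.2 fun a =>
            (εd a i).smul (contDiffOn_const.sub (hp.clm_apply contDiffOn_const))))
    · have e1 : ⟪v - p x v, w - p x w⟫ = ⟪v, w⟫ - ⟪p x v, w⟫ := by
        rw [inner_sub_left, inner_sub_right, inner_sub_right, symm x hx v (p x w), idem x hx,
          symm x hx v w]
        ring
      have e2 : ∀ a, ∑ c, P a c x * ε c j x = ε a j x := fun a => by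
        simp only [hε]
        rw [← hP x hx a]
        simp
      have e3 : ⟪∑ a, ε a i x • σ a x v, ∑ a, ε a j x • σ a x w⟫ +
          ⟪∑ a, ε a i x • σ a x w, ∑ a, ε a j x • σ a x v⟫ =
          2 * ((∑ a, ε a i x * ε a j x) * ⟪p x v, w⟫) := by
        rw [sum_inner, sum_inner, ← Finset.sum_add_distrib, Finset.sum_mul, Finset.mul_sum]
        refine Finset.sum_congr rfl fun a _ => ?_
        rw [inner_sum, inner_sum, ← Finset.sum_add_distrib, ← e2 a, Finset.mul_sum,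
          Finset.sum_mul, Finset.mul_sum]
        refine Finset.sum_congr rfl fun c _ => ?_
        simp only [real_inner_smul_left, real_inner_smul_right]
        rw [real_inner_comm (σ c x v) (σ a x w)]
        linear_combination (ε a i x * ε c j x) * hcl x hx a c v w
      simp only [sa, inner_big, real_inner_smul_left, real_inner_smul_right]
      rw [real_inner_comm (v - p x v) (w - p x w), e1]
      have e4 : ∑ a, ε a j x * (ε a i x * (⟪v, w⟫ - ⟪p x v, w⟫)) =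
          (∑ a, ε a i x * ε a j x) * (⟪v, w⟫ - ⟪p x v, w⟫) := by
        rw [Finset.sum_mul]; exact Finset.sum_congr rfl fun a _ => by ring
      rw [e4]
      linear_combination e3
    · have e1 : ∑ i, ∑ j, (∑ a, ε a i x * ε a j x) * (ξ i * ξ j) =
          ∑ a, (∑ i, ε a i x * ξ i) ^ 2 := by
        simp only [sq, Finset.sum_mul_sum]
        rw [Finset.sum_comm (s := Finset.univ (α := ι))]
        refine Finset.sum_congr rfl fun i _ => ?_
        rw [Finset.sum_comm (s := Finset.univ (α := ι))]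
        refine Finset.sum_congr rfl fun j _ => ?_
        rw [Finset.sum_mul]
        exact Finset.sum_congr rfl fun a _ => by ring
      rw [e1]
      refine lt_of_le_of_ne (Finset.sum_nonneg fun _ _ => sq_nonneg _) fun h0 => hξ ?_
      have h1 := (Finset.sum_eq_zero_iff_of_nonneg fun _ _ => sq_nonneg _).1 h0.symm
      have h2 : b.constr ℝ ξ = 0 := by
        refine LinearMap.ext_on (hsp x hx) ?_
        rintro _ ⟨a, rfl⟩
        have := pow_eq_zero_iff two_ne_zero |>.1 (h1 a (Finset.mem_univ a))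
        simpa [hε, Module.Basis.constr_apply_fintype] using this
      funext i
      simpa using congrArg (fun L => L (b i)) h2
  refine ev_zero_of_closure hΩ b.span_eq hop hu (fun x hx => ?_) hx hc
  obtain ⟨C, hC⟩ := hL x hx
  have hn := hΩ.mem_nhds hx
  have hco : ContinuousAt (fun y a => fderiv ℝ p y (e a y)) x := continuousAt_pi.2 fun a =>
    (((hp.continuousOn_fderiv_of_isOpen hΩ le_rfl).clm_apply (he a).continuousOn).continuousAt hn)
  refine ⟨‖big W V ι‖ * max C (‖fun a => fderiv ℝ p x (e a x)‖ + 1), ?_⟩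
  filter_upwards [hC, hn, hco.norm.eventually_lt_const (lt_add_one _)] with y h1 hy h2
  have hn' := hΩ.mem_nhds hy
  have d1 := ((hp.contDiffAt hn').differentiableAt one_ne_zero).hasFDerivAt
  have d2 := ((hu.contDiffAt hn').differentiableAt two_ne_zero).hasFDerivAt
  have d3 : fderiv ℝ u y = fderiv ℝ (fun z => p z (u z)) y :=
    EventuallyEq.fderiv_eq (mem_of_superset hn' fun z hz => (hpu z hz).symm)
  rw [(d1.clm_apply d2).fderiv] at d3
  have e1 : ∀ a, ∑ i, ε a i y • fderiv ℝ u y (b i) = fderiv ℝ u y (e a y) := fun a => by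
    conv_rhs => rw [← b.sum_repr (e a y), map_sum]
    simp only [hε, map_smul]
  have e2 : ∑ i, s i y (fderiv ℝ u y (b i)) = big W V ι (∑ a, σ a y (fderiv ℝ u y (e a y)),
      fun a => fderiv ℝ p y (e a y) (u y)) := by
    simp only [sa, ← map_sum]
    congr 1
    refine Prod.ext ?_ (funext fun a => ?_)
    · simp only [Prod.fst_sum]
      rw [Finset.sum_comm]
      exact Finset.sum_congr rfl fun a _ => by simp [← e1]
    · simp only [Prod.snd_sum, Finset.sum_apply, smul_sub, Finset.sum_sub_distrib, ← map_smul,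
        ← map_sum]
      rw [show ∑ i, ε a i y • b i = e a y from b.sum_repr (e a y), sub_eq_iff_eq_add']
      exact congrArg (fun L => L (e a y)) d3
  rw [e2, mul_assoc]
  refine (ContinuousLinearMap.le_opNorm _ _).trans
    (mul_le_mul_of_nonneg_left (max_le ?_ ?_) (norm_nonneg _))
  · exact h1.trans (mul_le_mul_of_nonneg_right (le_max_left _ _) (norm_nonneg _))
  · refine (pi_norm_le_iff_of_nonneg (mul_nonneg (le_max_of_le_right (by positivity))
      (norm_nonneg _))).2 fun a => (ContinuousLinearMap.le_opNorm _ _).trans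
        (mul_le_mul_of_nonneg_right ?_ (norm_nonneg _))
    exact ((norm_le_pi_norm (fun a => fderiv ℝ p y (e a y)) a).trans h2.le).trans (le_max_right _ _)

end frame

section man

open An Sob92

variable {E : Type} [NormedAddCommGroup E] [NormedSpace ℝ E] [FiniteDimensional ℝ E]
  [MeasurableSpace E] [BorelSpace E]
  {HM : Type} [TopologicalSpace HM] {I : ModelWithCorners ℝ E HM} [I.Boundaryless]
  {M : Type} [TopologicalSpace M] [ChartedSpace HM M] [IsManifold I ∞ M]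
  [MeasurableSpace M] {ι : Type} [Fintype ι]
  {V W : Type} [NormedAddCommGroup V] [InnerProductSpace ℝ V] [FiniteDimensional ℝ V]
  [NormedAddCommGroup W] [InnerProductSpace ℝ W]

/-- **Unique continuation on a manifold**, on a connected open set `O`. -/
theorem ucp_man (F : Fr I M ι) {O : Set M} (hO : IsOpen O) (hc : IsPreconnected O)
    {σ : ι → M → V →L[ℝ] W} (hσ : ∀ a, ContMDiffOn I 𝓘(ℝ, V →L[ℝ] W) ∞ (σ a) O)
    {p : M → V →L[ℝ] V} (hp : ContMDiffOn I 𝓘(ℝ, V →L[ℝ] V) ∞ p O)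
    (idem : ∀ x ∈ O, ∀ v, p x (p x v) = p x v) (symm : ∀ x ∈ O, ∀ v w, ⟪p x v, w⟫ = ⟪v, p x w⟫)
    (hcl : ∀ x ∈ O, ∀ a c v w,
      ⟪σ a x v, σ c x w⟫ + ⟪σ c x v, σ a x w⟫ = 2 * F.P a c x * ⟪p x v, w⟫)
    {u : M → V} (hu : ContMDiffOn I 𝓘(ℝ, V) ∞ u O) (hpu : ∀ x ∈ O, p x (u x) = u x)
    (hL : ∀ x ∈ O, ∃ C, ∀ᶠ y in 𝓝 x, ‖∑ a, σ a y (F.D a u y)‖ ≤ C * ‖u y‖)
    {y : M} (hy : y ∈ O) (h0 : u =ᶠ[𝓝 y] 0) : ∀ x ∈ O, u x = 0 := by
  intro _ hx
  refine (hc.subset_of_closure_inter_subset (u := {y | u =ᶠ[𝓝 y] 0})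
    isOpen_setOfPred_eventually_nhds ⟨y, hy, h0⟩ (fun x₀ hz => ?_) hx).self_of_nhds
  set φ := extChartAt I x₀ with hφ
  set Ω := φ.target ∩ φ.symm ⁻¹' O with hΩ
  have ho : IsOpen Ω :=
    (continuousOn_extChartAt_symm x₀).isOpen_inter_preimage (isOpen_extChartAt_target x₀) hO
  have hs : ∀ z ∈ Ω, φ.symm z ∈ (chartAt HM x₀).source := fun z hz => by
    simpa [hφ] using φ.map_target hz.1
  have sy : ∀ z ∈ Ω, ContMDiffAt 𝓘(ℝ, E) I ∞ φ.symm z := fun z hz =>
    (contMDiffOn_extChartAt_symm x₀).contMDiffAt ((isOpen_extChartAt_target x₀).mem_nhds hz.1)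
  have loc : ∀ {N : Type} [NormedAddCommGroup N] [NormedSpace ℝ N] {f : M → N},
      (∀ z ∈ Ω, ContMDiffAt I 𝓘(ℝ, N) ∞ f (φ.symm z)) → ContDiffOn ℝ 2 (f ∘ φ.symm) Ω :=
    fun hf z hz => (((hf z hz).comp z (sy z hz)).contDiffAt.of_le
      (WithTop.coe_le_coe.2 le_top : ((2 : ℕ∞) : WithTop ℕ∞) ≤ ∞)).contDiffWithinAt
  have loc' : ∀ {N : Type} [NormedAddCommGroup N] [NormedSpace ℝ N] {f : M → N},
      ContMDiffOn I 𝓘(ℝ, N) ∞ f O → ContDiffOn ℝ 2 (f ∘ φ.symm) Ω :=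
    fun hf => loc fun z hz => hf.contMDiffAt (hO.mem_nhds hz.2)
  have hD : ∀ z ∈ Ω, ∀ a, F.D a u (φ.symm z) =
      fderiv ℝ (u ∘ φ.symm) z (F.D a φ (φ.symm z)) := fun z hz a => by
    have h1 := (((loc' hu).contDiffAt (ho.mem_nhds hz)).differentiableAt two_ne_zero).hasFDerivAt
    rw [← φ.right_inv hz.1] at h1
    have := (of_chart_hasFDerivAt (hs z hz) h1).2 (F.e a)
    rwa [φ.right_inv hz.1] at this
  have hx₀ : φ x₀ ∈ Ω := ⟨mem_extChartAt_target x₀, by simpa [hφ] using hz.2⟩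
  have key := ev_zero_frame ho (e := fun a => F.D a φ ∘ φ.symm) (P := fun a c => F.P a c ∘ φ.symm)
    (σ := fun a => σ a ∘ φ.symm) (p := p ∘ φ.symm) (u := u ∘ φ.symm)
    (fun a => (loc fun z hz => dv_smoothAt (F.sm a _)
      (contMDiffAt_extChartAt' (hs z hz))).of_le (by norm_num))
    (fun z hz => by
      obtain ⟨L, hL⟩ := isInvertible_mfderiv_extChartAt (I := I) (φ.map_target hz.1)
      let L' : TangentSpace I (φ.symm z) ≃ₗ[ℝ] E := L.toLinearEquiv
      have h1 : (range fun a => (F.D a φ ∘ φ.symm) z) =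
          L'.toLinearMap '' range fun a => F.e a (φ.symm z) := by
        rw [← range_comp]
        congr 1
        funext a
        exact (congrArg (fun T => T (F.e a (φ.symm z))) hL).symm
      rw [h1, Submodule.span_image, F.span, Submodule.map_top, LinearEquiv.range])
    (fun z _ a => by
      have := congrArg (mfderiv I 𝓘(ℝ, E) φ (φ.symm z)) (F.P_e a (φ.symm z))
      rw [map_sum] at this
      simp only [map_smul] at this
      exact this)
    (fun a => (loc' (hσ a)).of_le (by norm_num)) ((loc' hp).of_le (by norm_num))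
    (fun z hz => idem _ hz.2) (fun z hz => symm _ hz.2) (fun z hz => hcl _ hz.2) (loc' hu)
    (fun z hz => hpu _ hz.2)
    (fun z hz => by
      obtain ⟨C, hC⟩ := hL _ hz.2
      refine ⟨C, ?_⟩
      filter_upwards [(sy z hz).continuousAt.tendsto.eventually hC, ho.mem_nhds hz] with w h1 h2
      simpa only [hD w h2, Function.comp] using h1)
    hx₀ (by
      refine ContinuousWithinAt.mem_closure (f := φ) (s := {y | u =ᶠ[𝓝 y] 0} ∩ φ.source)
        (continuousAt_extChartAt x₀).continuousWithinAt ?_ ?_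
      · exact (isOpen_extChartAt_source (I := I) x₀).closure_inter ⟨hz.1, mem_extChartAt_source x₀⟩
      · intro w hw
        have h1 := continuousAt_extChartAt_symm' hw.2
        refine h1.tendsto.eventually (p := fun x => u x = 0) ?_
        rw [φ.left_inv hw.2]
        exact hw.1)
  filter_upwards [(continuousAt_extChartAt x₀).tendsto.eventually key,
    extChartAt_source_mem_nhds (I := I) x₀] with w h1 h2
  exact (congrArg u (φ.left_inv h2)).symm.trans h1

/-- the same for a good operator of Dirac type: solutions of `|A u| ≤ C |u|` -/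
theorem ucp_op (F : Fr I M ι) (A : An.Op M ι V W) {C : ℕ → ℝ} (hA : A.Good F C)
    (hcl : A.CliffL F) {O : Set M} (hO : IsOpen O) (hc : IsPreconnected O) {u : M → V}
    (hu : ContMDiffOn I 𝓘(ℝ, V) ∞ u O) (hpu : ∀ x ∈ O, A.p x (u x) = u x)
    (hL : ∀ x ∈ O, ∃ K, ∀ᶠ y in 𝓝 x, ‖A.app F u y‖ ≤ K * ‖u y‖)
    {y : M} (hy : y ∈ O) (h0 : u =ᶠ[𝓝 y] 0) : ∀ x ∈ O, u x = 0 := by
  refine ucp_man F hO hc (fun a => (hA.σ a).1.contMDiffOn) hA.p.cb.1.contMDiffOn
    (fun x _ => hA.p.idem x) (fun x _ => hA.p.symm x) (fun x _ a c => hcl a c x) hu hpu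
    (fun x hx => ?_) hy h0
  obtain ⟨K, hK⟩ := hL x hx
  refine ⟨K + C 0, hK.mono fun z hz => ?_⟩
  have h1 : ∑ a, A.σ a z (F.D a u z) = A.app F u z - A.B z (u z) := by simp [Op.app, Pre.op]
  have h2 := ((A.B z).le_opNorm (u z)).trans
    (mul_le_mul_of_nonneg_right (hA.B.2 0 [] le_rfl z) (norm_nonneg _))
  rw [h1]
  linarith [norm_sub_le (A.app F u z) (A.B z (u z))]

end man

end Crest.Agent.X212.Ucp64
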